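import Vale.Agent.P286.H96.Last

/-!
# Quantum geometric Langlands for the projective line and all simple groups

Let `G` be a connected simple group over `ℂ`, `G^∨` its Langlands dual, `h`, `h'` their dual Coxeter
numbers and `r` the lacing number.  Then `D_c(Bun_G(ℙ¹))` and `D_{-1/(rc)}(Bun_{G^∨}(ℙ¹))` are
equivalent DG categories, for all irrational `c`: for the types `A`, `D`, `E`, `F_4`, `G_2` and
`B_2 = C_2` there are a connected group `Γ'` and finite central subgroups `Z`, `Z'` of `Γ'` with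
`G = Γ'/Z` and `G^∨ = Γ'/Z'`; for the types `B_n`, `C_n` the groups are quotients of `Sp_{2n}` and
`Spin_{2n+1}` by finite central subgroups.
-/

namespace Vale.Agent.Results.P286.GenusZeroAll

open Vale.Agent.P286.Gen Vale.Agent.P286.H96 Vale.Agent.P286.Gen.H96

/-- Quantum geometric Langlands on the projective line at irrational level. -/
theorem result :
    (∀ n : ℕ, ∃ (N : ℕ) (E : Fin (2 * n + 1) → Matrix (Fin N) (Fin N) ℂ), IsGam E) ∧
    ∀ (N N' : ℕ) (Γ : Gps N) (Γ' : Gps N') (h h' r : ℕ), Pair Γ Γ' h h' r →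
    ∀ (Z : Gps N) (Z' : Gps N') (m m' : ℕ), IsCentral Γ Z m → IsCentral Γ' Z' m' →
    ∀ c : ℂ, (∀ q : ℚ, c ≠ (q : ℂ)) →
    DGEq (DBun Γ Z m h c) (DBun Γ' Z' m' h' (-1 / (r * c))) ∧
    DGEq (DBun Γ Z m h c) (BgST Γ) ∧ IsNz (DBun Γ Z m h c) := Vale.Agent.P286.H96.result inp

end Vale.Agent.Results.P286.GenusZeroAll
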